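import Mathlib

open MeasureTheory Set

namespace Vale.Agent.P248

/-! Fubini lemmas along one coordinate -/

lemma volume_eq_lintegral_section {n : ℕ} (i : Fin (n + 1)) {A : Set (Fin (n + 1) → ℝ)}
    (hA : MeasurableSet A) :
    volume A = ∫⁻ h : ℝ, volume {x : Fin n → ℝ | (i.insertNth h x : Fin (n + 1) → ℝ) ∈ A} := by
  have hp := (volume_preserving_piFinSuccAbove (fun _ : Fin (n + 1) => ℝ) i).symm
  have h1 := hp.measure_preimage hA.nullMeasurableSet
  rw [← h1]
  have hm : MeasurableSet ((MeasurableEquiv.piFinSuccAbove (fun _ : Fin (n + 1) => ℝ) i).symm ⁻¹' A) :=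
    (MeasurableEquiv.measurable _) hA
  have : (volume : Measure (ℝ × (Fin n → ℝ))) = (volume : Measure ℝ).prod (volume : Measure (Fin n → ℝ)) := rfl
  rw [this, Measure.prod_apply hm]
  rfl

lemma volume_eq_lintegral_fiber {n : ℕ} (i : Fin (n + 1)) {A : Set (Fin (n + 1) → ℝ)}
    (hA : MeasurableSet A) :
    volume A = ∫⁻ x : Fin n → ℝ, volume {h : ℝ | (i.insertNth h x : Fin (n + 1) → ℝ) ∈ A} := by
  have hp := (volume_preserving_piFinSuccAbove (fun _ : Fin (n + 1) => ℝ) i).symm
  have h1 := hp.measure_preimage hA.nullMeasurableSet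
  rw [← h1]
  have hm : MeasurableSet ((MeasurableEquiv.piFinSuccAbove (fun _ : Fin (n + 1) => ℝ) i).symm ⁻¹' A) :=
    (MeasurableEquiv.measurable _) hA
  have : (volume : Measure (ℝ × (Fin n → ℝ))) = (volume : Measure ℝ).prod (volume : Measure (Fin n → ℝ)) := rfl
  rw [this, Measure.prod_apply_symm hm]
  rfl

lemma measurable_section {n : ℕ} (i : Fin (n + 1)) (h : ℝ) {A : Set (Fin (n + 1) → ℝ)}
    (hA : MeasurableSet A) : MeasurableSet {x : Fin n → ℝ | (i.insertNth h x : Fin (n + 1) → ℝ) ∈ A} := by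
  have hm : Measurable (fun x : Fin n → ℝ => (i.insertNth h x : Fin (n + 1) → ℝ)) := by
    have := (MeasurableEquiv.piFinSuccAbove (fun _ : Fin (n + 1) => ℝ) i).symm.measurable
    exact this.comp (measurable_prodMk_left (x := h))
  exact hm hA

end Vale.Agent.P248
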