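import Mathlib
import Vale.Agent.Lib.P248.Basic

open MeasureTheory Set
open scoped Pointwise

namespace Vale.Agent.P248

/-- The projection of `A` along the `i`-th coordinate. -/
def coordProj {n : ℕ} (i : Fin (n + 1)) (A : Set (Fin (n + 1) → ℝ)) : Set (Fin n → ℝ) :=
  {x | ∃ h : ℝ, (i.insertNth h x : Fin (n + 1) → ℝ) ∈ A}

/-- segment `[-a, a] e_i` -/
def seg {n : ℕ} (i : Fin (n + 1)) (a : ℝ) : Set (Fin (n + 1) → ℝ) :=
  (fun t : ℝ => Pi.single i t) '' Icc (-a) a

lemma isCompact_seg {n : ℕ} (i : Fin (n + 1)) (a : ℝ) : IsCompact (seg i a) := by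
  have h : Continuous (fun t : ℝ => (Pi.single i t : Fin (n + 1) → ℝ)) :=
    continuous_single (A := fun _ : Fin (n + 1) => ℝ) i
  exact isCompact_Icc.image h

lemma coordProj_eq_image {n : ℕ} (i : Fin (n + 1)) (A : Set (Fin (n + 1) → ℝ)) :
    coordProj i A = (fun y : Fin (n + 1) → ℝ => (i.removeNth y : Fin n → ℝ)) '' A := by
  ext x
  constructor
  · rintro ⟨h, hh⟩
    exact ⟨_, hh, by simp⟩
  · rintro ⟨y, hy, rfl⟩
    refine ⟨y i, ?_⟩
    simpa using hy

lemma isCompact_coordProj {n : ℕ} (i : Fin (n + 1)) {A : Set (Fin (n + 1) → ℝ)} (hA : IsCompact A) :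
    IsCompact (coordProj i A) := by
  rw [coordProj_eq_image]
  apply hA.image
  unfold Fin.removeNth
  fun_prop

lemma volume_add_Icc {F : Set ℝ} (hF : IsCompact F) (hne : F.Nonempty) {a : ℝ} (ha : 0 ≤ a)
    {G : Set ℝ} (hG : ∀ x ∈ F, ∀ t ∈ Icc (-a) a, x + t ∈ G) :
    volume F + ENNReal.ofReal (2 * a) ≤ volume G := by
  obtain ⟨m, hm, hmin⟩ := hF.exists_isMinOn hne continuousOn_id
  obtain ⟨M, hM, hmax⟩ := hF.exists_isMaxOn hne continuousOn_id
  have hmin' : ∀ x ∈ F, m ≤ x := fun x hx => hmin hx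
  have hmax' : ∀ x ∈ F, x ≤ M := fun x hx => hmax hx
  have hsub : F ∪ (Ico (m - a) m ∪ Ioc M (M + a)) ⊆ G := by
    rintro x (hx | hx | hx)
    · have := hG x hx 0 ⟨by linarith, ha⟩
      simpa using this
    · have := hG m hm (x - m) ⟨by linarith [hx.1], by linarith [hx.2]⟩
      simpa using this
    · have := hG M hM (x - M) ⟨by linarith [hx.1], by linarith [hx.2]⟩
      simpa using this
  have hd2 : Disjoint (Ico (m - a) m) (Ioc M (M + a)) := by
    rw [Set.disjoint_left]
    intro x h1 h2
    have := hmin' M hM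
    have := h1.2
    have := h2.1
    linarith
  have hd1 : Disjoint F (Ico (m - a) m ∪ Ioc M (M + a)) := by
    rw [Set.disjoint_left]
    rintro x h1 (h2 | h2)
    · have := hmin' x h1
      linarith [h2.2]
    · have := hmax' x h1
      linarith [h2.1]
  calc volume F + ENNReal.ofReal (2 * a)
      = volume F + (volume (Ico (m - a) m) + volume (Ioc M (M + a))) := by
        rw [Real.volume_Ico, Real.volume_Ioc, ← ENNReal.ofReal_add (by linarith) (by linarith)]
        congr 2
        ring
    _ = volume (F ∪ (Ico (m - a) m ∪ Ioc M (M + a))) := by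
        rw [measure_union hd1 (measurableSet_Ico.union measurableSet_Ioc),
          measure_union hd2 measurableSet_Ioc]
    _ ≤ volume G := measure_mono hsub

lemma volume_add_seg {n : ℕ} (i : Fin (n + 1)) {A : Set (Fin (n + 1) → ℝ)} (hA : IsCompact A)
    {a : ℝ} (ha : 0 ≤ a) :
    volume A + ENNReal.ofReal (2 * a) * volume (coordProj i A) ≤ volume (A + seg i a) := by
  have hm : MeasurableSet (A + seg i a) := (hA.add (isCompact_seg i a)).measurableSet
  have hPm : MeasurableSet (coordProj i A) := (isCompact_coordProj i hA).measurableSet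
  rw [volume_eq_lintegral_fiber i hm, volume_eq_lintegral_fiber i hA.measurableSet]
  have hfm : Measurable fun x : Fin n → ℝ => volume {h : ℝ | (i.insertNth h x : Fin (n + 1) → ℝ) ∈ A} := by
    have hmA : MeasurableSet ((MeasurableEquiv.piFinSuccAbove (fun _ : Fin (n + 1) => ℝ) i).symm ⁻¹' A) :=
      (MeasurableEquiv.measurable _) hA.measurableSet
    exact measurable_measure_prodMk_right hmA
  have h1 : ENNReal.ofReal (2 * a) * volume (coordProj i A) =
      ∫⁻ x : Fin n → ℝ, (coordProj i A).indicator (fun _ => ENNReal.ofReal (2 * a)) x := by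
    rw [lintegral_indicator hPm, setLIntegral_const]
  rw [h1, ← lintegral_add_left hfm]
  apply lintegral_mono
  intro x
  by_cases hx : x ∈ coordProj i A
  · simp only [Set.indicator_of_mem hx]
    apply volume_add_Icc _ hx ha
    · rintro h hh t ht
      refine ⟨_, hh, _, ⟨t, ht, rfl⟩, ?_⟩
      ext j
      refine Fin.succAboveCases i ?_ (fun j => ?_) j
      · simp
      · simp
    · have hcont : Continuous fun h : ℝ => (i.insertNth h x : Fin (n + 1) → ℝ) := by
        fun_prop
      have hclosed : IsClosed {h : ℝ | (i.insertNth h x : Fin (n + 1) → ℝ) ∈ A} :=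
        hA.isClosed.preimage hcont
      have hsub : {h : ℝ | (i.insertNth h x : Fin (n + 1) → ℝ) ∈ A} ⊆ (fun y : Fin (n + 1) → ℝ => y i) '' A := by
        intro h hh
        exact ⟨_, hh, by simp⟩
      exact (hA.image (continuous_apply i)).of_isClosed_subset hclosed hsub
  · simp only [Set.indicator_of_notMem hx, add_zero]
    apply measure_mono
    intro h hh
    exact absurd ⟨h, hh⟩ hx

lemma isCompact_sum_seg {n : ℕ} (c : Fin (n + 1) → ℝ) (S : Finset (Fin (n + 1))) :
    IsCompact (∑ i ∈ S, seg i (c i)) := by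
  classical
  induction S using Finset.induction_on with
  | empty => simp only [Finset.sum_empty]; exact isCompact_singleton
  | insert j S hj ih =>
    rw [Finset.sum_insert hj]
    exact (isCompact_seg j (c j)).add ih

lemma zero_mem_sum_seg {n : ℕ} {c : Fin (n + 1) → ℝ} (hc : ∀ i, 0 ≤ c i)
    (S : Finset (Fin (n + 1))) : (0 : Fin (n + 1) → ℝ) ∈ ∑ i ∈ S, seg i (c i) := by
  classical
  induction S using Finset.induction_on with
  | empty => simp
  | insert j S hj ih =>
    rw [Finset.sum_insert hj]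
    refine ⟨0, ⟨0, ⟨by linarith [hc j], hc j⟩, by simp⟩, 0, ih, by simp⟩

lemma volume_add_sum_seg {n : ℕ} {L : Set (Fin (n + 1) → ℝ)} (hL : IsCompact L)
    {c : Fin (n + 1) → ℝ} (hc : ∀ i, 0 ≤ c i) (S : Finset (Fin (n + 1))) :
    volume L + ∑ i ∈ S, ENNReal.ofReal (2 * c i) * volume (coordProj i L) ≤
      volume (L + ∑ i ∈ S, seg i (c i)) := by
  classical
  induction S using Finset.induction_on with
  | empty => simp
  | insert j S hj ih =>
    have h1 : L + ∑ i ∈ insert j S, seg i (c i) = (L + ∑ i ∈ S, seg i (c i)) + seg j (c j) := by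
      rw [Finset.sum_insert hj, add_comm (seg j (c j)), add_assoc]
    rw [h1, Finset.sum_insert hj]
    have h2 := volume_add_seg j (hL.add (isCompact_sum_seg c S)) (hc j)
    have h3 : volume (coordProj j L) ≤ volume (coordProj j (L + ∑ i ∈ S, seg i (c i))) := by
      apply measure_mono
      rintro x ⟨h, hh⟩
      exact ⟨h, _, hh, 0, zero_mem_sum_seg hc S, by simp⟩
    calc volume L + (ENNReal.ofReal (2 * c j) * volume (coordProj j L) +
            ∑ i ∈ S, ENNReal.ofReal (2 * c i) * volume (coordProj i L))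
        = (volume L + ∑ i ∈ S, ENNReal.ofReal (2 * c i) * volume (coordProj i L)) +
          ENNReal.ofReal (2 * c j) * volume (coordProj j L) := by ring
      _ ≤ volume (L + ∑ i ∈ S, seg i (c i)) +
          ENNReal.ofReal (2 * c j) * volume (coordProj j (L + ∑ i ∈ S, seg i (c i))) := by gcongr
      _ ≤ _ := h2

lemma mem_sum_seg {n : ℕ} {c : Fin (n + 1) → ℝ} (S : Finset (Fin (n + 1)))
    {w : Fin (n + 1) → ℝ} (hw : w ∈ ∑ i ∈ S, seg i (c i)) :
    ∀ i, (i ∈ S → |w i| ≤ c i) ∧ (i ∉ S → w i = 0) := by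
  classical
  induction S using Finset.induction_on generalizing w with
  | empty =>
    simp only [Finset.sum_empty, Set.mem_zero] at hw
    intro i; simp [hw]
  | insert j S hj ih =>
    rw [Finset.sum_insert hj] at hw
    obtain ⟨_, ⟨t, ht, rfl⟩, v, hv, rfl⟩ := hw
    have hv' := ih hv
    intro i
    by_cases hij : i = j
    · subst hij
      refine ⟨fun _ => ?_, fun h => absurd (Finset.mem_insert_self i S) h⟩
      simp only [Pi.add_apply, Pi.single_eq_same, (hv' i).2 hj, add_zero]
      exact abs_le.2 ht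
    · simp only [Pi.add_apply, Pi.single_eq_of_ne hij, zero_add, Finset.mem_insert, hij, false_or]
      exact hv' i

lemma sum_seg_add_subset {n : ℕ} {L : Set (Fin (n + 1) → ℝ)} (hconv : Convex ℝ L)
    {b : Fin (n + 1) → ℝ} (hbox : ∀ w : Fin (n + 1) → ℝ, (∀ i, |w i| ≤ b i) → w ∈ L)
    {t : ℝ} (ht : 0 < t) :
    L + ∑ i, seg i (t * b i) ⊆ (1 + t) • L := by
  rintro _ ⟨y, hy, v, hv, rfl⟩
  have hv' : ∀ i, |v i| ≤ t * b i := fun i => ((mem_sum_seg Finset.univ hv) i).1 (Finset.mem_univ i)
  have hw : t⁻¹ • v ∈ L := by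
    apply hbox
    intro i
    simp only [Pi.smul_apply, smul_eq_mul, abs_mul, abs_inv, abs_of_pos ht]
    rw [inv_mul_le_iff₀ ht]
    exact hv' i
  have h1 : 0 < 1 + t := by linarith
  refine ⟨(1 + t)⁻¹ • y + (t / (1 + t)) • (t⁻¹ • v), ?_, ?_⟩
  · apply hconv hy hw
    · positivity
    · positivity
    · field_simp
  · ext i
    simp only [Pi.smul_apply, Pi.add_apply, smul_eq_mul]
    field_simp

/-- If a compact convex `L` contains the box `∏ [-b_i, b_i]`, then
`2 ∑ b_i |P_i L| ≤ (n+1) |L|`, where `P_i` is the projection along the `i`-th axis. -/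
lemma box_lemma {n : ℕ} {L : Set (Fin (n + 1) → ℝ)} (hL : IsCompact L) (hconv : Convex ℝ L)
    {b : Fin (n + 1) → ℝ} (hb : ∀ i, 0 ≤ b i)
    (hbox : ∀ w : Fin (n + 1) → ℝ, (∀ i, |w i| ≤ b i) → w ∈ L) :
    2 * ∑ i, b i * (volume (coordProj i L)).toReal ≤ (n + 1) * (volume L).toReal := by
  set V := (volume L).toReal with hV
  set C := 2 * ∑ i, b i * (volume (coordProj i L)).toReal with hC
  have hfin : volume L ≠ ⊤ := hL.measure_lt_top.ne
  have hPfin : ∀ i, volume (coordProj i L) ≠ ⊤ := fun i => (isCompact_coordProj i hL).measure_lt_top.ne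
  have key : ∀ t : ℝ, 0 < t → C ≤ (((1 + t) ^ (n + 1) - 1) / t) * V := by
    intro t ht
    have h1 := volume_add_sum_seg hL (c := fun i => t * b i) (fun i => mul_nonneg ht.le (hb i)) Finset.univ
    have h2 : volume (L + ∑ i, seg i (t * b i)) ≤ volume ((1 + t) • L) :=
      measure_mono (sum_seg_add_subset hconv hbox ht)
    have h3 := h1.trans h2
    rw [Measure.addHaar_smul, Module.finrank_fin_fun, abs_of_nonneg (by positivity)] at h3
    have h4 := ENNReal.toReal_mono (ENNReal.mul_ne_top ENNReal.ofReal_ne_top hfin) h3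
    rw [ENNReal.toReal_add hfin, ENNReal.toReal_mul, ENNReal.toReal_ofReal (by positivity),
      ENNReal.toReal_sum] at h4
    · have h5 : ∑ i, (ENNReal.ofReal (2 * (t * b i)) * volume (coordProj i L)).toReal = t * C := by
        rw [hC, Finset.mul_sum, Finset.mul_sum]
        refine Finset.sum_congr rfl fun i _ => ?_
        rw [ENNReal.toReal_mul, ENNReal.toReal_ofReal (by have := hb i; positivity)]
        ring
      rw [h5] at h4
      rw [div_mul_eq_mul_div, le_div_iff₀ ht]
      linarith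
    · intro i _
      exact ENNReal.mul_ne_top ENNReal.ofReal_ne_top (hPfin i)
    · exact (ENNReal.sum_lt_top.2 fun i _ => ENNReal.mul_lt_top ENNReal.ofReal_lt_top
        (hPfin i).lt_top).ne
  -- let t → 0
  have hder : HasDerivAt (fun t : ℝ => (1 + t) ^ (n + 1)) ((n + 1 : ℕ) : ℝ) 0 := by
    have h1 : HasDerivAt (fun t : ℝ => 1 + t) 1 0 := by simpa using (hasDerivAt_id (0:ℝ)).const_add 1
    simpa using h1.fun_pow (n + 1)
  have hlim : Filter.Tendsto (fun t : ℝ => (((1 + t) ^ (n + 1) - 1) / t) * V) (nhdsWithin 0 (Ioi 0))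
      (nhds (((n + 1 : ℕ) : ℝ) * V)) := by
    apply Filter.Tendsto.mul_const
    have := hder.tendsto_slope_zero_right
    refine this.congr fun t => ?_
    simp only [zero_add, add_zero, one_pow, smul_eq_mul]
    rw [div_eq_inv_mul]
  have hfinal := ge_of_tendsto hlim (Filter.eventually_of_mem self_mem_nhdsWithin fun t ht => key t ht)
  push_cast at hfinal
  exact hfinal

end Vale.Agent.P248
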