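import Mathlib
import Vale.Agent.Lib.P248.Basic

open MeasureTheory Set
open scoped Pointwise

namespace Vale.Agent.P248

lemma integral_one_sub_div_pow {x : ℝ} (hx : 0 < x) (n : ℕ) :
    ∫ h in (0:ℝ)..x, (1 - h / x) ^ n = x / (n + 1) := by
  have hn : (n : ℝ) + 1 ≠ 0 := by positivity
  have hd : ∀ h ∈ Set.uIcc (0:ℝ) x,
      HasDerivAt (fun h : ℝ => -(x / (n + 1)) * (1 - h / x) ^ (n + 1)) ((1 - h / x) ^ n) h := by
    intro h _
    have h1 : HasDerivAt (fun h : ℝ => 1 - h / x) (-(1 / x)) h := by
      simpa using ((hasDerivAt_id h).div_const x).const_sub 1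
    have h2 := (h1.pow (n + 1)).const_mul (-(x / (n + 1)))
    refine h2.congr_deriv ?_
    push_cast
    field_simp
  rw [intervalIntegral.integral_eq_sub_of_hasDerivAt hd]
  · rw [div_self hx.ne']
    simp
  · apply Continuous.intervalIntegrable
    fun_prop

lemma lintegral_one_sub_div_pow {x : ℝ} (hx : 0 < x) (n : ℕ) :
    ∫⁻ h in Ioo (0:ℝ) x, ENNReal.ofReal ((1 - h / x) ^ n) = ENNReal.ofReal (x / (n + 1)) := by
  rw [← integral_one_sub_div_pow hx n, intervalIntegral.integral_of_le hx.le,
    integral_Ioc_eq_integral_Ioo]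
  rw [← ofReal_integral_eq_lintegral_ofReal]
  · have : IntegrableOn (fun h : ℝ => (1 - h / x) ^ n) (Icc 0 x) := by
      apply ContinuousOn.integrableOn_Icc
      fun_prop
    exact this.mono_set Ioo_subset_Icc_self
  · refine (ae_restrict_iff' measurableSet_Ioo).2 (Filter.Eventually.of_forall ?_)
    intro h hh
    have : 0 ≤ 1 - h / x := by
      rw [sub_nonneg, div_le_one hx]
      exact hh.2.le
    positivity

/-- The piece of `K` in the positive orthant lying in the cone from `x` over the face `y_i = 0`. -/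
def conePiece {n : ℕ} (K : Set (Fin (n + 1) → ℝ)) (x : Fin (n + 1) → ℝ) (i : Fin (n + 1)) :
    Set (Fin (n + 1) → ℝ) :=
  {y | y ∈ K ∧ (∀ j, 0 < y j) ∧ ∀ j, j ≠ i → y i * x j < y j * x i}

lemma measurableSet_conePiece {n : ℕ} {K : Set (Fin (n + 1) → ℝ)} (hK : MeasurableSet K)
    (x : Fin (n + 1) → ℝ) (i : Fin (n + 1)) : MeasurableSet (conePiece K x i) := by
  have h1 : MeasurableSet {y : Fin (n + 1) → ℝ | ∀ j, 0 < y j} := by
    rw [Set.ofPred_forall]
    exact MeasurableSet.iInter fun j => measurableSet_lt measurable_const (measurable_pi_apply j)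
  have h2 : MeasurableSet {y : Fin (n + 1) → ℝ | ∀ j, j ≠ i → y i * x j < y j * x i} := by
    rw [Set.ofPred_forall]
    refine MeasurableSet.iInter fun j => ?_
    rw [Set.ofPred_forall]
    refine MeasurableSet.iInter fun _ => ?_
    exact measurableSet_lt ((measurable_pi_apply i).mul_const _) ((measurable_pi_apply j).mul_const _)
  exact hK.inter (h1.inter h2)

lemma conePiece_pairwiseDisjoint {n : ℕ} (K : Set (Fin (n + 1) → ℝ)) (x : Fin (n + 1) → ℝ) :
    Pairwise (Function.onFun Disjoint (conePiece K x)) := by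
  intro i j hij
  rw [Function.onFun, Set.disjoint_left]
  rintro y ⟨_, _, h1⟩ ⟨_, _, h2⟩
  have := h1 j hij.symm
  have := h2 i hij
  linarith

lemma conePiece_volume {n : ℕ} {K : Set (Fin (n + 1) → ℝ)} (hK : MeasurableSet K)
    (hc : Convex ℝ K) {x : Fin (n + 1) → ℝ} (hx : x ∈ K) (hx0 : ∀ i, 0 ≤ x i) (i : Fin (n + 1)) :
    ENNReal.ofReal (x i) * volume {z : Fin n → ℝ | (∀ j, 0 < z j) ∧ (i.insertNth 0 z : Fin (n + 1) → ℝ) ∈ K}
      ≤ (n + 1) * volume (conePiece K x i) := by
  rcases (hx0 i).eq_or_lt with h0 | hpos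
  · rw [← h0]; simp
  set S : Set (Fin n → ℝ) := {z : Fin n → ℝ | (∀ j, 0 < z j) ∧ (i.insertNth 0 z : Fin (n + 1) → ℝ) ∈ K} with hS
  have key : ∀ h ∈ Ioo (0:ℝ) (x i), ENNReal.ofReal ((1 - h / x i) ^ n) * volume S ≤
      volume {z : Fin n → ℝ | (i.insertNth h z : Fin (n + 1) → ℝ) ∈ conePiece K x i} := by
    intro h hh
    set r : ℝ := h / x i with hr
    have hr0 : 0 < r := div_pos hh.1 hpos
    have hr1 : r < 1 := (div_lt_one hpos).2 hh.2
    have hhr : h = r * x i := by rw [hr]; field_simp
    have himg : (fun z : Fin n → ℝ => r • (i.removeNth x : Fin n → ℝ) + z) '' ((1 - r) • S) ⊆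
        {z : Fin n → ℝ | (i.insertNth h z : Fin (n + 1) → ℝ) ∈ conePiece K x i} := by
      rintro _ ⟨_, ⟨z, hz, rfl⟩, rfl⟩
      have e1 : (i.insertNth h (r • (i.removeNth x : Fin n → ℝ) + (1 - r) • z) : Fin (n + 1) → ℝ)
          = r • x + (1 - r) • (i.insertNth 0 z : Fin (n + 1) → ℝ) := by
        ext j
        refine Fin.succAboveCases i ?_ (fun j => ?_) j
        · simp [hhr]
        · simp [Fin.removeNth]
      have hzK := hz.2
      have hz0 := hz.1
      show (i.insertNth h (r • (i.removeNth x : Fin n → ℝ) + (1 - r) • z) : Fin (n + 1) → ℝ) ∈ conePiece K x i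
      rw [e1]
      refine ⟨hc hx hzK hr0.le (by linarith) (by ring), ?_, ?_⟩
      · intro j
        refine Fin.succAboveCases i ?_ (fun j => ?_) j
        · simp only [Pi.add_apply, Pi.smul_apply, smul_eq_mul, Fin.insertNth_apply_same, mul_zero, add_zero]
          positivity
        · simp only [Pi.add_apply, Pi.smul_apply, smul_eq_mul, Fin.insertNth_apply_succAbove]
          have := hz0 j
          have := hx0 (i.succAbove j)
          have : 0 < 1 - r := by linarith
          positivity
      · intro j hj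
        obtain ⟨k, rfl⟩ := Fin.exists_succAbove_eq hj
        simp only [Pi.add_apply, Pi.smul_apply, smul_eq_mul, Fin.insertNth_apply_same, mul_zero, add_zero,
          Fin.insertNth_apply_succAbove]
        have := hz0 k
        have h1r : 0 < 1 - r := by linarith
        have : 0 < (1 - r) * z k * x i := by positivity
        nlinarith
    calc ENNReal.ofReal ((1 - h / x i) ^ n) * volume S
        = volume ((1 - r) • S) := by
          rw [Measure.addHaar_smul]
          simp only [Module.finrank_fin_fun]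
          rw [abs_of_nonneg (pow_nonneg (by linarith) n)]
      _ = volume ((fun z : Fin n → ℝ => r • (i.removeNth x : Fin n → ℝ) + z) '' ((1 - r) • S)) := by
          rw [Set.image_add_left, measure_preimage_add]
      _ ≤ _ := measure_mono himg
  have hfub := volume_eq_lintegral_section i (measurableSet_conePiece hK x i)
  have h2 : ∫⁻ h in Ioo (0:ℝ) (x i), ENNReal.ofReal ((1 - h / x i) ^ n) * volume S ≤ volume (conePiece K x i) := by
    rw [hfub]
    calc ∫⁻ h in Ioo (0:ℝ) (x i), ENNReal.ofReal ((1 - h / x i) ^ n) * volume S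
        ≤ ∫⁻ h in Ioo (0:ℝ) (x i), volume {z : Fin n → ℝ | (i.insertNth h z : Fin (n + 1) → ℝ) ∈ conePiece K x i} := by
          apply setLIntegral_mono' measurableSet_Ioo
          exact key
      _ ≤ _ := setLIntegral_le_lintegral _ _
  have h3 : ∫⁻ h in Ioo (0:ℝ) (x i), ENNReal.ofReal ((1 - h / x i) ^ n) * volume S
      = ENNReal.ofReal (x i / (n + 1)) * volume S := by
    rw [lintegral_mul_const, lintegral_one_sub_div_pow hpos]
    fun_prop
  rw [h3] at h2
  calc ENNReal.ofReal (x i) * volume S = (n + 1) * (ENNReal.ofReal (x i / (n + 1)) * volume S) := by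
        rw [← mul_assoc]
        congr 1
        have : ((n : ENNReal) + 1) = ENNReal.ofReal ((n : ℝ) + 1) := by
          rw [ENNReal.ofReal_add (by positivity) (by norm_num)]
          simp
        rw [this, ← ENNReal.ofReal_mul (by positivity)]
        congr 1
        field_simp
    _ ≤ _ := by gcongr

/-- Cone lemma: for a point `x` of a convex set `K` with nonnegative coordinates, the cones from `x`
over the coordinate faces of the positive part of `K` are disjoint and inside `K`. -/
lemma cone_lemma {n : ℕ} {K : Set (Fin (n + 1) → ℝ)} (hK : MeasurableSet K)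
    (hc : Convex ℝ K) {x : Fin (n + 1) → ℝ} (hx : x ∈ K) (hx0 : ∀ i, 0 ≤ x i) :
    ∑ i, ENNReal.ofReal (x i) * volume {z : Fin n → ℝ | (∀ j, 0 < z j) ∧ (i.insertNth 0 z : Fin (n + 1) → ℝ) ∈ K}
      ≤ (n + 1) * volume {y : Fin (n + 1) → ℝ | (∀ j, 0 < y j) ∧ y ∈ K} := by
  calc _ ≤ ∑ i, (n + 1) * volume (conePiece K x i) :=
        Finset.sum_le_sum fun i _ => conePiece_volume hK hc hx hx0 i
    _ = (n + 1) * ∑ i, volume (conePiece K x i) := by rw [Finset.mul_sum]
    _ = (n + 1) * volume (⋃ i, conePiece K x i) := by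
        rw [measure_iUnion (conePiece_pairwiseDisjoint K x) (fun i => measurableSet_conePiece hK x i),
          tsum_fintype]
    _ ≤ _ := by
        gcongr
        intro y hy
        simp only [Set.mem_iUnion] at hy
        obtain ⟨i, hi⟩ := hy
        exact ⟨hi.2.1, hi.1⟩

end Vale.Agent.P248
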