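import Mathlib

open MeasureTheory

namespace Vale.Agent.P248

/-- The polar set of `K` with respect to the standard inner product of `ℝ^n`. -/
def polarSet {n : ℕ} (K : Set (Fin n → ℝ)) : Set (Fin n → ℝ) :=
  {y | ∀ x ∈ K, ∑ i, y i * x i ≤ 1}

/-- The open coordinate orthant with sign pattern `s` (`true` for positive). -/
def openOrthant {n : ℕ} (s : Fin n → Bool) : Set (Fin n → ℝ) :=
  {x | ∀ i, if s i = true then 0 < x i else x i < 0}

/-- The section of `K ⊆ ℝ^n` by the coordinate subspace spanned by the coordinates in the range of
the injection `φ`, seen as a subset of `ℝ^k` (all other coordinates are set to `0`). -/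
def subspaceSection {n k : ℕ} (φ : Fin k ↪ Fin n) (K : Set (Fin n → ℝ)) : Set (Fin k → ℝ) :=
  {x | Function.extend φ x 0 ∈ K}

/-- `K` is equipartitioned by the coordinate hyperplanes: in every coordinate subspace, all open
orthants of that subspace cut out the same volume from the section of `K`. -/
def IsEquipartitioned {n : ℕ} (K : Set (Fin n → ℝ)) : Prop :=
  ∀ (k : ℕ) (φ : Fin k ↪ Fin n) (s t : Fin k → Bool),
    volume (subspaceSection φ K ∩ openOrthant s) = volume (subspaceSection φ K ∩ openOrthant t)

end Vale.Agent.P248
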