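import Mathlib
import Vale.Agent.Lib.P248.Defs

open MeasureTheory

namespace Vale.Agent.P248

/-- The section of `K` by the coordinate hyperplane `x_i = 0`, as a subset of `ℝ^n`. -/
def coordSection {n : ℕ} (i : Fin (n + 1)) (K : Set (Fin (n + 1) → ℝ)) : Set (Fin n → ℝ) :=
  {x | (i.insertNth 0 x : Fin (n + 1) → ℝ) ∈ K}

/-- Recursive form of the equipartition property. -/
def Equipartitioned : (n : ℕ) → Set (Fin n → ℝ) → Prop
  | 0, _ => True
  | n + 1, K =>
    (∀ s t : Fin (n + 1) → Bool, volume (K ∩ openOrthant s) = volume (K ∩ openOrthant t)) ∧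
      ∀ i : Fin (n + 1), Equipartitioned n (coordSection i K)

end Vale.Agent.P248
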