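import Mathlib
import Vale.Agent.Lib.P248.Defs
import Vale.Agent.Lib.P248.Rec
import Vale.Agent.Lib.P248.Basic
import Vale.Agent.Lib.P248.Cone

open MeasureTheory Set
open scoped Pointwise

namespace Vale.Agent.P248

/-- sign of a Boolean -/
def sg (b : Bool) : ℝ := if b = true then 1 else -1

lemma sg_mul_self (b : Bool) : sg b * sg b = 1 := by cases b <;> simp [sg]

/-- reflection with sign pattern `s` -/
def refl {n : ℕ} (s : Fin n → Bool) (x : Fin n → ℝ) : Fin n → ℝ := fun i => sg (s i) * x i

lemma refl_refl {n : ℕ} (s : Fin n → Bool) (x : Fin n → ℝ) : refl s (refl s x) = x := by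
  ext i
  simp only [refl]
  rw [← mul_assoc, sg_mul_self, one_mul]

lemma measurePreserving_refl {n : ℕ} (s : Fin n → Bool) :
    MeasurePreserving (refl s) (volume : Measure (Fin n → ℝ)) volume := by
  apply volume_preserving_pi
  intro i
  cases h : s i
  · have : (HMul.hMul (sg false) : ℝ → ℝ) = Neg.neg := by ext x; simp [sg]
    rw [this]
    exact Measure.measurePreserving_neg volume
  · have : (HMul.hMul (sg true) : ℝ → ℝ) = id := by ext x; simp [sg]
    rw [this]
    exact MeasurePreserving.id volume

lemma continuous_refl {n : ℕ} (s : Fin n → Bool) : Continuous (refl s) := by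
  unfold refl
  fun_prop

lemma measurableSet_openOrthant {n : ℕ} (s : Fin n → Bool) : MeasurableSet (openOrthant s) := by
  unfold openOrthant
  rw [Set.ofPred_forall]
  refine MeasurableSet.iInter fun j => ?_
  by_cases h : s j = true
  · simp only [h, if_true]
    exact measurableSet_lt measurable_const (measurable_pi_apply j)
  · simp only [h]
    exact measurableSet_lt (measurable_pi_apply j) measurable_const

lemma mem_openOrthant_iff {n : ℕ} (s : Fin n → Bool) (x : Fin n → ℝ) :
    x ∈ openOrthant s ↔ ∀ i, 0 < refl s x i := by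
  unfold openOrthant refl sg
  constructor
  · intro h i
    have := h i
    by_cases hs : s i = true
    · simp only [hs, if_true] at this ⊢; linarith
    · simp only [hs] at this ⊢; simp at this ⊢; linarith
  · intro h i
    have := h i
    by_cases hs : s i = true
    · simp only [hs, if_true] at this ⊢; linarith
    · simp only [hs] at this ⊢; simp at this ⊢; linarith

lemma cone_lemma_signed {n : ℕ} {K : Set (Fin (n + 1) → ℝ)} (hK : MeasurableSet K)
    (hc : Convex ℝ K) (s : Fin (n + 1) → Bool) {x : Fin (n + 1) → ℝ} (hx : x ∈ K)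
    (hx0 : ∀ i, 0 ≤ refl s x i) :
    ∑ i, ENNReal.ofReal (|x i|) * volume (coordSection i K ∩ openOrthant (fun j => s (i.succAbove j)))
      ≤ (n + 1) * volume (K ∩ openOrthant s) := by
  have hm := measurePreserving_refl s
  have hK' : MeasurableSet (refl s ⁻¹' K) := hm.measurable hK
  have hc' : Convex ℝ (refl s ⁻¹' K) := by
    intro a ha b hb p q hp hq hpq
    show refl s (p • a + q • b) ∈ K
    have : refl s (p • a + q • b) = p • refl s a + q • refl s b := by
      ext i
      simp only [refl, Pi.add_apply, Pi.smul_apply, smul_eq_mul]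
      ring
    rw [this]
    exact hc ha hb hp hq hpq
  have hx' : refl s x ∈ refl s ⁻¹' K := by
    show refl s (refl s x) ∈ K
    rw [refl_refl]; exact hx
  have h := cone_lemma hK' hc' hx' hx0
  have e1 : ∀ i, ENNReal.ofReal (|x i|) * volume (coordSection i K ∩ openOrthant (fun j => s (i.succAbove j)))
      = ENNReal.ofReal (refl s x i) * volume {z : Fin n → ℝ | (∀ j, 0 < z j) ∧
        (i.insertNth 0 z : Fin (n + 1) → ℝ) ∈ refl s ⁻¹' K} := by
    intro i
    congr 1
    · congr 1
      have h0 := hx0 i
      have : |refl s x i| = |x i| := by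
        simp only [refl, abs_mul]
        cases s i <;> simp [sg]
      rw [← this, abs_of_nonneg h0]
    · have hm' := measurePreserving_refl (fun j => s (i.succAbove j))
      have : {z : Fin n → ℝ | (∀ j, 0 < z j) ∧ (i.insertNth 0 z : Fin (n + 1) → ℝ) ∈ refl s ⁻¹' K}
          = refl (fun j => s (i.succAbove j)) ⁻¹' (coordSection i K ∩ openOrthant (fun j => s (i.succAbove j))) := by
        ext z
        simp only [Set.mem_ofPred_eq, Set.mem_preimage, Set.mem_inter_iff, mem_openOrthant_iff, refl_refl, coordSection]
        rw [and_comm]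
        have : refl s (i.insertNth 0 z : Fin (n + 1) → ℝ)
          = (i.insertNth 0 (refl (fun j => s (i.succAbove j)) z) : Fin (n + 1) → ℝ) := by
          ext j
          refine Fin.succAboveCases i ?_ (fun j => ?_) j
          · simp [refl]
          · simp [refl]
        rw [this]
      rw [this, hm'.measure_preimage]
      have hS : MeasurableSet (coordSection i K) := measurable_section i 0 hK
      exact (hS.inter (measurableSet_openOrthant _)).nullMeasurableSet
  have e2 : volume (K ∩ openOrthant s) = volume {y : Fin (n + 1) → ℝ | (∀ j, 0 < y j) ∧ y ∈ refl s ⁻¹' K} := by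
    have : {y : Fin (n + 1) → ℝ | (∀ j, 0 < y j) ∧ y ∈ refl s ⁻¹' K} = refl s ⁻¹' (K ∩ openOrthant s) := by
      ext z
      simp only [Set.mem_ofPred_eq, Set.mem_preimage, Set.mem_inter_iff, mem_openOrthant_iff, refl_refl]
      rw [and_comm]
    rw [this, hm.measure_preimage (hK.inter (measurableSet_openOrthant _)).nullMeasurableSet]
  rw [e2]
  calc _ = _ := Finset.sum_congr rfl fun i _ => e1 i
    _ ≤ _ := h

lemma openOrthant_pairwiseDisjoint {n : ℕ} (K : Set (Fin n → ℝ)) :
    Pairwise (Function.onFun Disjoint (fun s : Fin n → Bool => K ∩ openOrthant s)) := by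
  intro s t hst
  rw [Function.onFun, Set.disjoint_left]
  rintro x ⟨_, h1⟩ ⟨_, h2⟩
  apply hst
  ext i
  have a := h1 i
  have b := h2 i
  cases hs : s i <;> cases ht : t i <;> simp [hs, ht] at a b ⊢ <;> linarith

lemma volume_eq_sum_orthants {n : ℕ} {K : Set (Fin n → ℝ)} (hK : MeasurableSet K) :
    volume K = ∑ s : Fin n → Bool, volume (K ∩ openOrthant s) := by
  have h1 : volume (⋃ s : Fin n → Bool, K ∩ openOrthant s) = ∑ s : Fin n → Bool, volume (K ∩ openOrthant s) := by
    rw [measure_iUnion (openOrthant_pairwiseDisjoint K)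
      (fun s => hK.inter (measurableSet_openOrthant s)), tsum_fintype]
  rw [← h1]
  apply le_antisymm
  · have hsub : K ⊆ (⋃ s : Fin n → Bool, K ∩ openOrthant s) ∪ ⋃ i : Fin n, {f : Fin n → ℝ | f i = 0} := by
      intro x hx
      by_cases h : ∃ i, x i = 0
      · right
        obtain ⟨i, hi⟩ := h
        exact Set.mem_iUnion.2 ⟨i, hi⟩
      · left
        push Not at h
        refine Set.mem_iUnion.2 ⟨fun i => decide (0 < x i), hx, ?_⟩
        intro i
        by_cases hi : 0 < x i
        · simp [hi]
        · simp only [hi, decide_false]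
          exact lt_of_le_of_ne (not_lt.1 hi) (h i)
    calc volume K ≤ _ := measure_mono hsub
      _ ≤ volume (⋃ s : Fin n → Bool, K ∩ openOrthant s) + volume (⋃ i : Fin n, {f : Fin n → ℝ | f i = 0}) :=
        measure_union_le _ _
      _ = _ := by
        have : volume (⋃ i : Fin n, {f : Fin n → ℝ | f i = 0}) = 0 := by
          rw [measure_iUnion_null_iff]
          intro i
          exact Measure.pi_hyperplane (fun _ => (volume : Measure ℝ)) i 0
        rw [this, add_zero]
  · apply measure_mono
    exact Set.iUnion_subset fun s => Set.inter_subset_left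

lemma volume_eq_two_pow_mul {n : ℕ} {K : Set (Fin n → ℝ)} (hK : MeasurableSet K)
    (hb : ∀ s t : Fin n → Bool, volume (K ∩ openOrthant s) = volume (K ∩ openOrthant t))
    (s : Fin n → Bool) :
    volume K = 2 ^ n * volume (K ∩ openOrthant s) := by
  rw [volume_eq_sum_orthants hK, Finset.sum_congr rfl (fun t _ => hb t s)]
  simp

end Vale.Agent.P248
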