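import Mathlib
import Vale.Agent.Lib.P248.Defs
import Vale.Agent.Lib.P248.Rec
import Vale.Agent.Lib.P248.Basic
import Vale.Agent.Lib.P248.Cone
import Vale.Agent.Lib.P248.Orthants
import Vale.Agent.Lib.P248.Box

open MeasureTheory Set
open scoped Pointwise

namespace Vale.Agent.P248

lemma convex_polarSet {n : ℕ} (K : Set (Fin n → ℝ)) : Convex ℝ (polarSet K) := by
  intro a ha b hb p q hp hq hpq x hx
  have h1 := ha x hx
  have h2 := hb x hx
  have : ∑ i, (p • a + q • b) i * x i = p * ∑ i, a i * x i + q * ∑ i, b i * x i := by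
    rw [Finset.mul_sum, Finset.mul_sum, ← Finset.sum_add_distrib]
    refine Finset.sum_congr rfl fun i _ => ?_
    simp only [Pi.add_apply, Pi.smul_apply, smul_eq_mul]; ring
  rw [this]
  nlinarith

lemma isClosed_polarSet {n : ℕ} (K : Set (Fin n → ℝ)) : IsClosed (polarSet K) := by
  unfold polarSet
  rw [Set.ofPred_forall]
  refine isClosed_iInter fun x => ?_
  rw [Set.ofPred_forall]
  refine isClosed_iInter fun _ => ?_
  exact isClosed_le (by fun_prop) continuous_const

lemma exists_smul_single_mem {n : ℕ} {K : Set (Fin n → ℝ)} (h0 : (0 : Fin n → ℝ) ∈ interior K) :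
    ∃ r : ℝ, 0 < r ∧ ∀ i, (Pi.single i r : Fin n → ℝ) ∈ K ∧ (Pi.single i (-r) : Fin n → ℝ) ∈ K := by
  obtain ⟨ε, hε, hball⟩ := Metric.isOpen_iff.1 isOpen_interior 0 h0
  refine ⟨ε / 2, by positivity, fun i => ⟨interior_subset (hball ?_), interior_subset (hball ?_)⟩⟩
  · rw [Metric.mem_ball, dist_zero_right, Pi.norm_single, Real.norm_eq_abs, abs_of_pos (by positivity)]
    linarith
  · rw [Metric.mem_ball, dist_zero_right, Pi.norm_single, norm_neg, Real.norm_eq_abs, abs_of_pos (by positivity)]
    linarith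

lemma isCompact_polarSet {n : ℕ} {K : Set (Fin n → ℝ)} (h0 : (0 : Fin n → ℝ) ∈ interior K) :
    IsCompact (polarSet K) := by
  obtain ⟨r, hr, hK⟩ := exists_smul_single_mem h0
  apply (isCompact_univ_pi (fun _ : Fin n => isCompact_Icc (a := -(1/r)) (b := 1/r))).of_isClosed_subset
    (isClosed_polarSet K)
  intro y hy i _
  have h1 := hy _ (hK i).1
  have h2 := hy _ (hK i).2
  have e : ∀ c : ℝ, ∑ j, y j * (Pi.single i c : Fin n → ℝ) j = y i * c := by
    intro c
    rw [Finset.sum_eq_single i]
    · simp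
    · intro j _ hj; simp [hj]
    · simp
  rw [e] at h1 h2
  constructor
  · rw [neg_le, ← sub_nonneg]
    have : 1 / r - -y i = (1 - y i * -r) / r := by field_simp
    rw [this]
    apply div_nonneg (by linarith) hr.le
  · rw [le_div_iff₀ hr]; exact h1

lemma isCompact_coordSection {n : ℕ} (i : Fin (n + 1)) {K : Set (Fin (n + 1) → ℝ)}
    (hK : IsCompact K) : IsCompact (coordSection i K) := by
  apply (isCompact_coordProj i hK).of_isClosed_subset
  · exact hK.isClosed.preimage (by fun_prop : Continuous fun x : Fin n → ℝ => (i.insertNth (0:ℝ) x : Fin (n + 1) → ℝ))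
  · intro x hx
    exact ⟨0, hx⟩

lemma convex_coordSection {n : ℕ} (i : Fin (n + 1)) {K : Set (Fin (n + 1) → ℝ)}
    (hK : Convex ℝ K) : Convex ℝ (coordSection i K) := by
  intro a ha b hb p q hp hq hpq
  show (i.insertNth (0:ℝ) (p • a + q • b) : Fin (n + 1) → ℝ) ∈ K
  have : (i.insertNth (0:ℝ) (p • a + q • b) : Fin (n + 1) → ℝ)
      = p • (i.insertNth (0:ℝ) a : Fin (n + 1) → ℝ) + q • (i.insertNth (0:ℝ) b : Fin (n + 1) → ℝ) := by
    ext j
    refine Fin.succAboveCases i ?_ (fun j => ?_) j
    · simp
    · simp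
  rw [this]
  exact hK ha hb hp hq hpq

lemma zero_mem_interior_coordSection {n : ℕ} (i : Fin (n + 1)) {K : Set (Fin (n + 1) → ℝ)}
    (h0 : (0 : Fin (n + 1) → ℝ) ∈ interior K) : (0 : Fin n → ℝ) ∈ interior (coordSection i K) := by
  have hc : Continuous fun x : Fin n → ℝ => (i.insertNth (0:ℝ) x : Fin (n + 1) → ℝ) := by fun_prop
  have h1 : IsOpen ((fun x : Fin n → ℝ => (i.insertNth (0:ℝ) x : Fin (n + 1) → ℝ)) ⁻¹' interior K) :=
    isOpen_interior.preimage hc
  have h2 : (fun x : Fin n → ℝ => (i.insertNth (0:ℝ) x : Fin (n + 1) → ℝ)) ⁻¹' interior K ⊆ coordSection i K := by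
    intro x hx
    have hx' : (i.insertNth (0:ℝ) x : Fin (n + 1) → ℝ) ∈ interior K := hx
    show (i.insertNth (0:ℝ) x : Fin (n + 1) → ℝ) ∈ K
    exact interior_subset hx'
  apply interior_maximal h2 h1
  show (i.insertNth (0:ℝ) (0 : Fin n → ℝ) : Fin (n + 1) → ℝ) ∈ interior K
  have : (i.insertNth (0:ℝ) (0 : Fin n → ℝ) : Fin (n + 1) → ℝ) = 0 := by
    ext j
    refine Fin.succAboveCases i ?_ (fun j => ?_) j
    · simp
    · simp
  rw [this]; exact h0

/-- The polar of a coordinate section is contained in the projection of the polar. -/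
lemma polarSet_coordSection_subset {n : ℕ} (i : Fin (n + 1)) {K : Set (Fin (n + 1) → ℝ)}
    (hc : Convex ℝ K) (h0 : (0 : Fin (n + 1) → ℝ) ∈ interior K) :
    polarSet (coordSection i K) ⊆ coordProj i (polarSet K) := by
  intro y hy
  obtain ⟨r, hr, hK⟩ := exists_smul_single_mem h0
  -- partial pairing
  set p : (Fin (n + 1) → ℝ) → ℝ := fun x => ∑ j, y j * x (i.succAbove j) with hp
  set A : Set ℝ := {t | ∃ v ∈ K, v i < 0 ∧ t = (1 - p v) / v i} with hA
  have hbound : ∀ u ∈ K, 0 < u i → ∀ v ∈ K, v i < 0 → (1 - p v) / v i ≤ (1 - p u) / u i := by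
    intro u hu hui v hv hvi
    have hs : 0 < u i - v i := by linarith
    set w : Fin (n + 1) → ℝ := (u i / (u i - v i)) • v + (-(v i) / (u i - v i)) • u with hw
    have hwK : w ∈ K := by
      apply hc hv hu
      · positivity
      · apply div_nonneg <;> linarith
      · field_simp; ring
    have hwi : w i = 0 := by
      simp only [hw, Pi.add_apply, Pi.smul_apply, smul_eq_mul]
      field_simp
      ring
    have hwS : (i.removeNth w : Fin n → ℝ) ∈ coordSection i K := by
      show (i.insertNth (0:ℝ) (i.removeNth w : Fin n → ℝ) : Fin (n + 1) → ℝ) ∈ K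
      have : (i.insertNth (0:ℝ) (i.removeNth w : Fin n → ℝ) : Fin (n + 1) → ℝ) = w := by
        ext j
        refine Fin.succAboveCases i ?_ (fun j => ?_) j
        · simp [hwi]
        · simp [Fin.removeNth]
      rw [this]; exact hwK
    have h1 : p w ≤ 1 := hy _ hwS
    have h2 : p w = (u i / (u i - v i)) * p v + (-(v i) / (u i - v i)) * p u := by
      simp only [hp, hw]
      rw [Finset.mul_sum, Finset.mul_sum, ← Finset.sum_add_distrib]
      refine Finset.sum_congr rfl fun j _ => ?_
      simp only [Pi.add_apply, Pi.smul_apply, smul_eq_mul]; ring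
    rw [h2] at h1
    have h3 : u i * p v + (-(v i)) * p u ≤ u i - v i := by
      have := mul_le_mul_of_nonneg_right h1 hs.le
      have e : (u i / (u i - v i) * p v + -v i / (u i - v i) * p u) * (u i - v i)
        = u i * p v + (-(v i)) * p u := by field_simp
      rw [e] at this; linarith
    rw [div_le_iff_of_neg hvi, div_mul_eq_mul_div, div_le_iff₀ hui]
    nlinarith
  have hAne : A.Nonempty := ⟨_, _, (hK i).2, by simp [hr], rfl⟩
  have hAbdd : BddAbove A := by
    refine ⟨(1 - p (Pi.single i r)) / (Pi.single i r : Fin (n + 1) → ℝ) i, ?_⟩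
    rintro t ⟨v, hv, hvi, rfl⟩
    exact hbound _ (hK i).1 (by simp [hr]) v hv hvi
  refine ⟨sSup A, ?_⟩
  intro x hx
  have hsum : ∑ j, (i.insertNth (sSup A) y : Fin (n + 1) → ℝ) j * x j = sSup A * x i + p x := by
    rw [Fin.sum_univ_succAbove _ i]
    simp [hp]
  rw [hsum]
  rcases lt_trichotomy (x i) 0 with hxi | hxi | hxi
  · have : (1 - p x) / x i ≤ sSup A := le_csSup hAbdd ⟨x, hx, hxi, rfl⟩
    rw [div_le_iff_of_neg hxi] at this
    linarith
  · rw [hxi, mul_zero, zero_add]
    apply hy
    show (i.insertNth (0:ℝ) (fun j => x (i.succAbove j)) : Fin (n + 1) → ℝ) ∈ K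
    have : (i.insertNth (0:ℝ) (fun j => x (i.succAbove j)) : Fin (n + 1) → ℝ) = x := by
      ext j
      refine Fin.succAboveCases i ?_ (fun j => ?_) j
      · simp [hxi]
      · simp
    rw [this]; exact hx
  · have : sSup A ≤ (1 - p x) / x i := by
      apply csSup_le hAne
      rintro t ⟨v, hv, hvi, rfl⟩
      exact hbound x hx hxi v hv hvi
    rw [le_div_iff₀ hxi] at this
    linarith

/-- One step of the induction: if the orthant parts of `K` have equal volumes and the same holds for
each of its coordinate hyperplane sections, then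
`(n+1)^2 |K| |K°| ≥ 4 ∑ |K ∩ e_i^⊥| |(K ∩ e_i^⊥)°|`. -/
lemma step {n : ℕ} {K : Set (Fin (n + 1) → ℝ)} (hK : IsCompact K) (hc : Convex ℝ K)
    (h0 : (0 : Fin (n + 1) → ℝ) ∈ interior K)
    (hb : ∀ s t : Fin (n + 1) → Bool, volume (K ∩ openOrthant s) = volume (K ∩ openOrthant t))
    (hbs : ∀ i, ∀ s t : Fin n → Bool,
      volume (coordSection i K ∩ openOrthant s) = volume (coordSection i K ∩ openOrthant t)) :
    4 * ∑ i, (volume (coordSection i K)).toReal * (volume (polarSet (coordSection i K))).toReal ≤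
      (n + 1) ^ 2 * ((volume K).toReal * (volume (polarSet K)).toReal) := by
  set V := (volume K).toReal with hV
  have hKfin : volume K ≠ ⊤ := hK.measure_lt_top.ne
  have hVpos : 0 < V := by
    apply ENNReal.toReal_pos _ hKfin
    exact (Measure.measure_pos_of_nonempty_interior _ ⟨0, h0⟩).ne'
  set s : Fin (n + 1) → ℝ := fun i => (volume (coordSection i K)).toReal with hs
  have hsfin : ∀ i, volume (coordSection i K) ≠ ⊤ := fun i => (isCompact_coordSection i hK).measure_lt_top.ne
  have hs0 : ∀ i, 0 ≤ s i := fun i => ENNReal.toReal_nonneg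
  -- the key inequality on `K`
  have hkey : ∀ x ∈ K, ∑ i, |x i| * s i ≤ (n + 1) / 2 * V := by
    intro x hx
    set ε : Fin (n + 1) → Bool := fun i => decide (0 ≤ x i) with hε
    have hx0 : ∀ i, 0 ≤ refl ε x i := by
      intro i
      simp only [refl, hε, sg]
      by_cases h : 0 ≤ x i
      · simp [h]
      · simp [h]; linarith
    have h1 := cone_lemma_signed hK.measurableSet hc ε hx hx0
    have h2 : volume K = 2 ^ (n + 1) * volume (K ∩ openOrthant ε) := volume_eq_two_pow_mul hK.measurableSet hb ε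
    have h3 : ∀ i, volume (coordSection i K) = 2 ^ n * volume (coordSection i K ∩ openOrthant (fun j => ε (i.succAbove j))) :=
      fun i => volume_eq_two_pow_mul (isCompact_coordSection i hK).measurableSet (hbs i) _
    have h4 : ∑ i, ENNReal.ofReal |x i| * volume (coordSection i K) * 2 ≤ (n + 1) * volume K := by
      calc ∑ i, ENNReal.ofReal |x i| * volume (coordSection i K) * 2
          = 2 ^ (n + 1) * ∑ i, ENNReal.ofReal |x i| * volume (coordSection i K ∩ openOrthant (fun j => ε (i.succAbove j))) := by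
            rw [Finset.mul_sum]
            refine Finset.sum_congr rfl fun i _ => ?_
            rw [h3 i]; ring
        _ ≤ 2 ^ (n + 1) * ((n + 1) * volume (K ∩ openOrthant ε)) := by gcongr
        _ = (n + 1) * volume K := by rw [h2]; ring
    have h5 := ENNReal.toReal_mono (ENNReal.mul_ne_top (by simp) hKfin) h4
    rw [ENNReal.toReal_sum] at h5
    · simp only [ENNReal.toReal_mul, ENNReal.toReal_ofReal (abs_nonneg _)] at h5
      have e : ((n : ENNReal) + 1).toReal = (n : ℝ) + 1 := by
        rw [ENNReal.toReal_add (by simp) (by simp)]; simp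
      rw [e] at h5
      have e2 : ∑ i, |x i| * (volume (coordSection i K)).toReal * (2 : ENNReal).toReal = 2 * ∑ i, |x i| * s i := by
        rw [Finset.mul_sum]
        refine Finset.sum_congr rfl fun i _ => ?_
        simp [hs]; ring
      rw [e2] at h5
      linarith
    · intro i _
      exact ENNReal.mul_ne_top (ENNReal.mul_ne_top ENNReal.ofReal_ne_top (hsfin i)) (by simp)
  -- box in the polar
  set b : Fin (n + 1) → ℝ := fun i => 2 * s i / ((n + 1) * V) with hbdef
  have hb0 : ∀ i, 0 ≤ b i := fun i => by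
    simp only [hbdef]
    have := hs0 i
    positivity
  have hbox : ∀ w : Fin (n + 1) → ℝ, (∀ i, |w i| ≤ b i) → w ∈ polarSet K := by
    intro w hw x hx
    calc ∑ i, w i * x i ≤ ∑ i, b i * |x i| := by
          refine Finset.sum_le_sum fun i _ => ?_
          calc w i * x i ≤ |w i * x i| := le_abs_self _
            _ = |w i| * |x i| := abs_mul _ _
            _ ≤ b i * |x i| := by gcongr; exact hw i
      _ = 2 / ((n + 1) * V) * ∑ i, |x i| * s i := by
          rw [Finset.mul_sum]
          refine Finset.sum_congr rfl fun i _ => ?_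
          simp only [hbdef]; ring
      _ ≤ 2 / ((n + 1) * V) * ((n + 1) / 2 * V) := by
          gcongr
          exact hkey x hx
      _ = 1 := by field_simp
  have h6 := box_lemma (isCompact_polarSet h0) (convex_polarSet K) hb0 hbox
  have h7 : ∀ i, (volume (polarSet (coordSection i K))).toReal ≤ (volume (coordProj i (polarSet K))).toReal := by
    intro i
    apply ENNReal.toReal_mono
    · exact (isCompact_coordProj i (isCompact_polarSet h0)).measure_lt_top.ne
    · exact measure_mono (polarSet_coordSection_subset i hc h0)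
  have h8 : 4 * ∑ i, s i * (volume (polarSet (coordSection i K))).toReal ≤
      (n + 1) * V * (2 * ∑ i, b i * (volume (coordProj i (polarSet K))).toReal) := by
    rw [Finset.mul_sum, Finset.mul_sum, Finset.mul_sum]
    refine Finset.sum_le_sum fun i _ => ?_
    have e : (n + 1) * V * (2 * (b i * (volume (coordProj i (polarSet K))).toReal))
        = 4 * (s i * (volume (coordProj i (polarSet K))).toReal) := by
      simp only [hbdef]
      field_simp
      ring
    rw [e]
    have := h7 i
    have := hs0 i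
    gcongr
  calc _ ≤ _ := h8
    _ ≤ (n + 1) * V * ((n + 1) * (volume (polarSet K)).toReal) := by gcongr
    _ = _ := by ring

lemma equi_orthants : ∀ {n : ℕ} {K : Set (Fin n → ℝ)}, Equipartitioned n K →
    ∀ s t : Fin n → Bool, volume (K ∩ openOrthant s) = volume (K ∩ openOrthant t)
  | 0, K, _, s, t => by rw [Subsingleton.elim s t]
  | n + 1, K, h, s, t => h.1 s t

theorem mahler_equi : ∀ (n : ℕ) (K : Set (Fin n → ℝ)), IsCompact K → Convex ℝ K →
    (0 : Fin n → ℝ) ∈ interior K → Equipartitioned n K →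
    (4 : ℝ) ^ n / (n.factorial : ℝ) ≤ (volume K).toReal * (volume (polarSet K)).toReal
  | 0, K, hK, hc, h0, hE => by
    have h1 : K = Set.univ := by
      ext x
      simp only [Set.mem_univ, iff_true]
      rw [Subsingleton.elim x 0]; exact interior_subset h0
    have h2 : polarSet K = Set.univ := by
      ext x
      simp [polarSet]
    rw [h2, h1]
    simp [volume_pi]
  | n + 1, K, hK, hc, h0, hE => by
    have hstep := step hK hc h0 hE.1 (fun i => equi_orthants (hE.2 i))
    have ih : ∀ i, (4 : ℝ) ^ n / (n.factorial : ℝ) ≤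
        (volume (coordSection i K)).toReal * (volume (polarSet (coordSection i K))).toReal :=
      fun i => mahler_equi n (coordSection i K) (isCompact_coordSection i hK) (convex_coordSection i hc)
        (zero_mem_interior_coordSection i h0) (hE.2 i)
    have h1 : ((n : ℝ) + 1) * ((4 : ℝ) ^ n / (n.factorial : ℝ)) ≤
        ∑ i, (volume (coordSection i K)).toReal * (volume (polarSet (coordSection i K))).toReal := by
      calc ((n : ℝ) + 1) * ((4 : ℝ) ^ n / (n.factorial : ℝ))
          = ∑ _i : Fin (n + 1), (4 : ℝ) ^ n / (n.factorial : ℝ) := by simp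
        _ ≤ _ := Finset.sum_le_sum fun i _ => ih i
    have h2 : 4 * (((n : ℝ) + 1) * ((4 : ℝ) ^ n / (n.factorial : ℝ))) ≤
        (n + 1) ^ 2 * ((volume K).toReal * (volume (polarSet K)).toReal) := by linarith
    rw [Nat.factorial_succ]
    push_cast
    have hfac : (0 : ℝ) < (n.factorial : ℝ) := by positivity
    have h3 : (4 : ℝ) ^ (n + 1) / (((n : ℝ) + 1) * n.factorial) * (n + 1) ^ 2
        = 4 * (((n : ℝ) + 1) * ((4 : ℝ) ^ n / (n.factorial : ℝ))) := by
      field_simp
      ring
    have h4 : (0 : ℝ) < ((n : ℝ) + 1) ^ 2 := by positivity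
    rw [← h3] at h2
    have h5 := le_of_mul_le_mul_left (by linarith : ((n : ℝ) + 1) ^ 2 * ((4 : ℝ) ^ (n + 1) / (((n : ℝ) + 1) * n.factorial)) ≤
      ((n : ℝ) + 1) ^ 2 * ((volume K).toReal * (volume (polarSet K)).toReal)) h4
    exact h5

end Vale.Agent.P248
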