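import Mathlib
import Vale.Agent.Lib.P248.Defs
import Vale.Agent.Lib.P248.Rec
import Vale.Agent.Lib.P248.Main

open MeasureTheory Set
open scoped Pointwise Matrix

namespace Vale.Agent.P248

/-- The volume product about the origin is invariant under linear automorphisms. -/
lemma polarSet_image {n : ℕ} (K : Set (Fin n → ℝ)) (T : (Fin n → ℝ) ≃ₗ[ℝ] (Fin n → ℝ)) :
    polarSet (T '' K) =
      (Matrix.toLin' (LinearMap.toMatrix' (T : (Fin n → ℝ) →ₗ[ℝ] (Fin n → ℝ)))ᵀ) ⁻¹' polarSet K := by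
  ext y
  simp only [polarSet, Set.mem_ofPred_eq, Set.mem_preimage, Set.forall_mem_image]
  refine forall₂_congr fun x _ => ?_
  have h1 : T x = (LinearMap.toMatrix' (T : (Fin n → ℝ) →ₗ[ℝ] (Fin n → ℝ))) *ᵥ x := by
    rw [LinearMap.toMatrix'_mulVec]; rfl
  have h2 : ∑ i, y i * T x i = y ⬝ᵥ ((LinearMap.toMatrix' (T : (Fin n → ℝ) →ₗ[ℝ] (Fin n → ℝ))) *ᵥ x) := by
    rw [h1]; rfl
  rw [h2, Matrix.dotProduct_mulVec, ← Matrix.mulVec_transpose, Matrix.toLin'_apply]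
  rfl

lemma volume_product_image {n : ℕ} (K : Set (Fin n → ℝ)) (T : (Fin n → ℝ) ≃ₗ[ℝ] (Fin n → ℝ)) :
    (volume (T '' K)).toReal * (volume (polarSet (T '' K))).toReal =
      (volume K).toReal * (volume (polarSet K)).toReal := by
  have hdet : LinearMap.det (T : (Fin n → ℝ) →ₗ[ℝ] (Fin n → ℝ)) ≠ 0 := (LinearEquiv.isUnit_det' T).ne_zero
  set A := LinearMap.toMatrix' (T : (Fin n → ℝ) →ₗ[ℝ] (Fin n → ℝ)) with hA
  have hdetA : A.det = LinearMap.det (T : (Fin n → ℝ) →ₗ[ℝ] (Fin n → ℝ)) := by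
    rw [hA, LinearMap.det_toMatrix']
  have hdet2 : LinearMap.det (Matrix.toLin' Aᵀ) = LinearMap.det (T : (Fin n → ℝ) →ₗ[ℝ] (Fin n → ℝ)) := by
    rw [LinearMap.det_toLin', Matrix.det_transpose, hdetA]
  have h1 : volume (T '' K) = ENNReal.ofReal |LinearMap.det (T : (Fin n → ℝ) →ₗ[ℝ] (Fin n → ℝ))| * volume K :=
    Measure.addHaar_image_linearMap volume (T : (Fin n → ℝ) →ₗ[ℝ] (Fin n → ℝ)) K
  have h2 : volume (polarSet (T '' K)) =
      ENNReal.ofReal |(LinearMap.det (T : (Fin n → ℝ) →ₗ[ℝ] (Fin n → ℝ)))⁻¹| * volume (polarSet K) := by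
    rw [polarSet_image, Measure.addHaar_preimage_linearMap volume (by rw [hdet2]; exact hdet), hdet2]
  rw [h1, h2, ENNReal.toReal_mul, ENNReal.toReal_mul, ENNReal.toReal_ofReal (abs_nonneg _),
    ENNReal.toReal_ofReal (abs_nonneg _), abs_inv]
  have : |LinearMap.det (T : (Fin n → ℝ) →ₗ[ℝ] (Fin n → ℝ))| ≠ 0 := abs_ne_zero.2 hdet
  field_simp

theorem mahler_equi_linear (n : ℕ) (K : Set (Fin n → ℝ)) (hK : IsCompact K) (hc : Convex ℝ K)
    (h0 : (0 : Fin n → ℝ) ∈ interior K) (T : (Fin n → ℝ) ≃ₗ[ℝ] (Fin n → ℝ))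
    (hE : Equipartitioned n (T '' K)) :
    (4 : ℝ) ^ n / (n.factorial : ℝ) ≤ (volume K).toReal * (volume (polarSet K)).toReal := by
  rw [← volume_product_image K T]
  have hTc : Continuous T := (T : (Fin n → ℝ) →ₗ[ℝ] (Fin n → ℝ)).continuous_of_finiteDimensional
  have hTo : IsOpenMap T := LinearMap.isOpenMap_of_finiteDimensional
    (T : (Fin n → ℝ) →ₗ[ℝ] (Fin n → ℝ)) T.surjective
  apply mahler_equi n (T '' K) (hK.image hTc) (hc.linear_image (T : (Fin n → ℝ) →ₗ[ℝ] (Fin n → ℝ))) _ hE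
  have : T '' interior K ⊆ interior (T '' K) :=
    interior_maximal (Set.image_mono interior_subset) (hTo _ isOpen_interior)
  exact this ⟨0, h0, map_zero T⟩

end Vale.Agent.P248
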