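import Mathlib
import Vale.Agent.Lib.P248.Defs
import Vale.Agent.Lib.P248.Rec
import Vale.Agent.Lib.P248.Linear

open MeasureTheory Set

namespace Vale.Agent.P248

lemma equipartitioned_of_isEquipartitioned : ∀ (n : ℕ) (K : Set (Fin n → ℝ)),
    IsEquipartitioned K → Equipartitioned n K
  | 0, _, _ => trivial
  | n + 1, K, h => by
    refine ⟨?_, fun i => ?_⟩
    · intro s t
      have h1 := h (n + 1) (Function.Embedding.refl _) s t
      have e : subspaceSection (Function.Embedding.refl (Fin (n + 1))) K = K := by
        ext x
        have : Function.extend (Function.Embedding.refl (Fin (n + 1))) x (0 : Fin (n + 1) → ℝ) = x := by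
          funext j
          exact (Function.Embedding.refl (Fin (n + 1))).injective.extend_apply x 0 j
        show Function.extend (Function.Embedding.refl (Fin (n + 1))) x (0 : Fin (n + 1) → ℝ) ∈ K ↔ x ∈ K
        rw [this]
      rwa [e] at h1
    · apply equipartitioned_of_isEquipartitioned n
      intro k φ s t
      have h1 := h k (φ.trans (Fin.succAboveEmb i)) s t
      have e : subspaceSection (φ.trans (Fin.succAboveEmb i)) K = subspaceSection φ (coordSection i K) := by
        ext x
        show Function.extend (φ.trans (Fin.succAboveEmb i)) x (0 : Fin (n + 1) → ℝ) ∈ K ↔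
          (i.insertNth 0 (Function.extend φ x (0 : Fin n → ℝ)) : Fin (n + 1) → ℝ) ∈ K
        have : Function.extend (φ.trans (Fin.succAboveEmb i)) x (0 : Fin (n + 1) → ℝ)
            = (i.insertNth 0 (Function.extend φ x (0 : Fin n → ℝ)) : Fin (n + 1) → ℝ) := by
          funext j
          refine Fin.succAboveCases i ?_ (fun j => ?_) j
          · rw [Function.extend_apply', Fin.insertNth_apply_same]; · rfl
            rintro ⟨a, ha⟩
            exact Fin.succAbove_ne i (φ a) ha
          · rw [Fin.insertNth_apply_succAbove]
            by_cases hj : ∃ a, φ a = j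
            · obtain ⟨a, rfl⟩ := hj
              rw [φ.injective.extend_apply]
              exact (φ.trans (Fin.succAboveEmb i)).injective.extend_apply x 0 a
            · rw [Function.extend_apply' _ _ _ hj, Function.extend_apply']; · rfl
              rintro ⟨a, ha⟩
              exact hj ⟨a, Fin.succAbove_right_injective ha⟩
        rw [this]
      rwa [e] at h1

end Vale.Agent.P248
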